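import Vale.Agent.P095.Amenable.Defs

/-! Norm estimates for the SI module. -/

noncomputable section

namespace Vale.Agent.P095.Amenable.SI

universe u


variable {A : Type u} [CStarAlgebra A]

lemma norm_le_sum {ι : Type*} [Fintype ι] (a : ι → A) (i : ι) : ‖a i‖ ≤ 1 + ∑ j, ‖a j‖ := by
  have := Finset.single_le_sum (f := fun j => ‖a j‖) (fun j _ => norm_nonneg _) (Finset.mem_univ i)
  linarith

lemma norm_conj_le (a T b : A) : ‖star a * T * b‖ ≤ ‖a‖ * ‖T‖ * ‖b‖ := by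
  refine (norm_mul₃_le ..).trans_eq ?_
  rw [norm_star]

lemma norm_sub_comm_sq {h r r' x : A} {R X ε : ℝ} (hh : ‖h‖ ≤ 1) (hr : ‖r‖ ≤ R)
    (hr' : ‖r'‖ ≤ R) (hx : ‖x‖ ≤ X) (h1 : ‖h * r - r * h‖ ≤ ε) (h2 : ‖h * r' - r' * h‖ ≤ ε) :
    ‖r * h * x * h * r' - h * (r * x * r') * h‖ ≤ 2 * R * X * ε := by
  have hR : 0 ≤ R := (norm_nonneg r).trans hr
  have hX : 0 ≤ X := (norm_nonneg x).trans hx
  have e : r * h * x * h * r' - h * (r * x * r') * h
      = (r * h - h * r) * x * (h * r') + h * r * x * (h * r' - r' * h) := by noncomm_ring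
  have hε : 0 ≤ ε := (norm_nonneg _).trans h1
  have a1 : ‖h * r'‖ ≤ R := (norm_mul_le _ _).trans
    ((mul_le_mul hh hr' (norm_nonneg _) zero_le_one).trans_eq (one_mul R))
  have a2 : ‖h * r * x‖ ≤ R * X := (norm_mul₃_le ..).trans
    ((mul_le_mul (mul_le_mul hh hr (norm_nonneg _) zero_le_one) hx (norm_nonneg _)
      (mul_nonneg zero_le_one hR)).trans_eq (by ring))
  have a3 : ‖(r * h - h * r) * x * (h * r')‖ ≤ ε * X * R := (norm_mul₃_le ..).trans
    (mul_le_mul (mul_le_mul (by rwa [norm_sub_rev]) hx (norm_nonneg _) hε) a1 (norm_nonneg _)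
      (mul_nonneg hε hX))
  rw [e]
  refine (norm_add_le _ _).trans ((add_le_add a3 ((norm_mul_le _ _).trans
    (mul_le_mul a2 h2 (norm_nonneg _) (mul_nonneg hR hX)))).trans_eq ?_)
  ring

/-- Sums of smul terms. -/
lemma norm_sum_smul_le {ι : Type*} [Fintype ι] (lam : ι → ℝ) (a : ι → A) {B : ℝ}
    (h0 : ∀ i, 0 ≤ lam i) (h : ∀ i, ‖a i‖ ≤ B) : ‖∑ i, lam i • a i‖ ≤ (∑ i, lam i) * B := by
  rw [Finset.sum_mul]
  refine (norm_sum_le _ _).trans (Finset.sum_le_sum fun i _ => ?_)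
  rw [norm_smul, Real.norm_eq_abs, abs_of_nonneg (h0 i)]
  exact mul_le_mul_of_nonneg_left (h i) (h0 i)

lemma norm_sum_le_card {ι : Type*} [Fintype ι] (a : ι → A) {B : ℝ} (h : ∀ i, ‖a i‖ ≤ B) :
    ‖∑ i, a i‖ ≤ Fintype.card ι * B := by
  refine (norm_sum_le _ _).trans ((Finset.sum_le_sum fun i _ => h i).trans_eq ?_)
  simp [Finset.card_univ]

/-- Norms of two compressions whose sum is close to a contraction. -/
lemma norm_pieces {a t₁ t₂ e : A} {ε : ℝ} (ha : Nonneg a)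
    (h : ‖star t₁ * a * t₁ + star t₂ * a * t₂ - e‖ ≤ ε) :
    ‖star t₁ * a * t₁‖ ≤ ‖e‖ + ε ∧ ‖star t₂ * a * t₂‖ ≤ ‖e‖ + ε := by
  obtain ⟨y, rfl⟩ := ha
  let := CStarAlgebra.spectralOrder A
  have := CStarAlgebra.spectralOrderedRing A
  have hp : ∀ t, 0 ≤ star t * (star y * y) * t := fun t => by
    have : star t * (star y * y) * t = star (y * t) * (y * t) := by simp [mul_assoc]
    exact this ▸ star_mul_self_nonneg _
  have hs : ‖star t₁ * (star y * y) * t₁ + star t₂ * (star y * y) * t₂‖ ≤ ‖e‖ + ε := by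
    linarith [norm_le_norm_add_norm_sub' (star t₁ * (star y * y) * t₁ + star t₂ * (star y * y) * t₂) e]
  exact ⟨(CStarAlgebra.norm_le_norm_of_nonneg_of_le (hp _) (le_add_of_nonneg_right (hp _))).trans hs,
    (CStarAlgebra.norm_le_norm_of_nonneg_of_le (hp _) (le_add_of_nonneg_left (hp _))).trans hs⟩

lemma norm_cut_sub_le {e : A} (he : Nonneg e) {η : ℝ} (hη : 0 ≤ η) : ‖cut e η - e‖ ≤ η := by
  obtain ⟨y, rfl⟩ := he
  let := CStarAlgebra.spectralOrder A
  have := CStarAlgebra.spectralOrderedRing A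
  have h0 : 0 ≤ star y * y := star_mul_self_nonneg y
  have hc : Continuous fun x : ℝ => max (x - η) 0 := by fun_prop
  conv_lhs => arg 1; arg 2; rw [← cfc_id' ℝ (star y * y)]
  rw [cut, ← cfc_sub (fun x : ℝ => max (x - η) 0) (fun x => x) _ hc.continuousOn continuousOn_id]
  refine norm_cfc_le hη fun x hx => ?_
  have hx0 : 0 ≤ x := spectrum_nonneg_of_nonneg h0 hx
  rw [Real.norm_eq_abs, abs_le]
  exact ⟨by linarith [le_max_left (x - η) 0], by
    linarith [max_le (show x - η ≤ x by linarith) hx0]⟩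

variable {κ : Type*} [Fintype κ]

/-- Two combinations with almost orthogonal left factors. -/
lemma cross_estimate (sl : κ → ℝ) (H H' Y Y' : κ → A) {B K : ℝ} (hsl : ∀ p, 0 ≤ sl p ∧ sl p ≤ 1)
    (hY : ∀ p, ‖Y p‖ ≤ B) (hY' : ∀ p, ‖Y' p‖ ≤ B) (hH : ∀ p p', ‖star (H p) * H' p'‖ ≤ K) :
    ‖star (∑ p, sl p • (H p * Y p)) * (∑ p, sl p • (H' p * Y' p))‖
      ≤ (Fintype.card κ : ℝ) * (Fintype.card κ * (B * K * B)) := by
  rw [star_sum, Finset.sum_mul]
  refine norm_sum_le_card _ fun p => ?_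
  rw [Finset.mul_sum]
  refine norm_sum_le_card _ fun p' => ?_
  have hB : 0 ≤ B := (norm_nonneg _).trans (hY p)
  have hK : 0 ≤ K := (norm_nonneg _).trans (hH p p')
  rw [star_smul, star_trivial, smul_mul_assoc, mul_smul_comm, smul_smul, norm_smul,
    Real.norm_eq_abs, abs_of_nonneg (mul_nonneg (hsl p).1 (hsl p').1), star_mul,
    show star (Y p) * star (H p) * (H' p' * Y' p') = star (Y p) * (star (H p) * H' p') * Y' p' by
      simp only [mul_assoc]]
  refine (mul_le_mul (mul_le_one₀ (hsl p).2 (hsl p').1 (hsl p').2) ((norm_conj_le _ _ _).trans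
    (mul_le_mul (mul_le_mul (hY p) (hH p p') (norm_nonneg _) hB) (hY' p') (norm_nonneg _)
      (mul_nonneg hB hK))) (norm_nonneg _) zero_le_one).trans_eq (one_mul _)

/-- Only the diagonal terms matter. -/
lemma diag_estimate (sl : κ → ℝ) (H Y : κ → A) (x : A) {B K : ℝ}
    (hsl : ∀ p, 0 ≤ sl p ∧ sl p ≤ 1) (hs : ∀ p, star (H p) = H p) (hY : ∀ p, ‖Y p‖ ≤ B)
    (hK : 0 ≤ K) (hH : ∀ p p', p ≠ p' → ‖H p * x * H p'‖ ≤ K) :
    ‖star (∑ p, sl p • (H p * Y p)) * x * (∑ p, sl p • (H p * Y p))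
        - ∑ p, (sl p * sl p) • (star (Y p) * (H p * x * H p) * Y p)‖
      ≤ (Fintype.card κ : ℝ) * (Fintype.card κ * (B * K * B)) := by
  classical
  rw [star_sum, Finset.sum_mul, Finset.sum_mul, ← Finset.sum_sub_distrib]
  refine norm_sum_le_card _ fun p => ?_
  rw [Finset.mul_sum]
  have e : ∀ p', star (sl p • (H p * Y p)) * x * (sl p' • (H p' * Y p'))
      = (sl p * sl p') • (star (Y p) * (H p * x * H p') * Y p') := fun p' => by
    rw [star_smul, star_trivial, smul_mul_assoc, smul_mul_assoc, mul_smul_comm, smul_smul,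
      star_mul, hs, mul_comm (sl p)]
    simp only [mul_assoc]
  simp only [e]
  rw [← Finset.sum_erase_eq_sub (Finset.mem_univ p)]
  have hB : 0 ≤ B := (norm_nonneg _).trans (hY p)
  refine (norm_sum_le _ _).trans ((Finset.sum_le_sum (g := fun _ => B * K * B) fun p' hp' => ?_).trans
    ?_)
  · rw [norm_smul, Real.norm_eq_abs, abs_of_nonneg (mul_nonneg (hsl p).1 (hsl p').1)]
    refine (mul_le_mul (mul_le_one₀ (hsl p).2 (hsl p').1 (hsl p').2) ((norm_conj_le _ _ _).trans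
      (mul_le_mul (mul_le_mul (hY p) (hH p p' (Finset.ne_of_mem_erase hp').symm) (norm_nonneg _) hB)
        (hY p') (norm_nonneg _) (mul_nonneg hB hK))) (norm_nonneg _) zero_le_one).trans_eq
      (one_mul _)
  · rw [Finset.sum_const, nsmul_eq_mul]
    exact mul_le_mul_of_nonneg_right (by exact_mod_cast Finset.card_le_univ _) (by positivity)

/-- One diagonal term against its excised form. -/
lemma excise_estimate {k : ℕ} {h w b x D : A} {r c : Fin k → A} {ρ : Fin k → Fin k → ℂ}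
    {R X C ε ε' : ℝ} (hs : star h = h) (hh : ‖h‖ ≤ 1) (hw : ‖w‖ ≤ 4) (hr : ∀ i, ‖r i‖ ≤ R)
    (hX : ‖x‖ ≤ X) (hC : ∀ i, ‖c i‖ ≤ C) (hε' : 0 ≤ ε')
    (hcomm : ∀ i, ‖h * r i - r i * h‖ ≤ ε ∧ ‖h * star (r i) - star (r i) * h‖ ≤ ε)
    (hD : star (h * w) * b * (h * w) = D) (hDn : ‖D‖ ≤ 2)
    (hex : ∀ i j, ∀ v : A, ‖star v * (star (r i) * x * r j - ρ i j • b) * v‖ ≤ ε' * ‖star v * b * v‖) :
    ‖star (∑ j, r j * w * c j) * (h * x * h) * (∑ j, r j * w * c j)
        - ∑ i, ∑ j, ρ i j • (star (c i) * D * c j)‖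
      ≤ (k : ℝ) * (k * (C * (32 * R * X * ε + 2 * ε') * C)) := by
  have e1 : star (∑ j, r j * w * c j) * (h * x * h) * (∑ j, r j * w * c j)
      - ∑ i, ∑ j, ρ i j • (star (c i) * D * c j) = ∑ i, ∑ j,
        star (c i) * (star w * (star (r i) * h * x * h * r j) * w - ρ i j • D) * c j := by
    simp only [mul_sub, sub_mul, Finset.sum_sub_distrib, mul_smul_comm, smul_mul_assoc]
    congr 1
    simp only [star_sum, Finset.sum_mul, Finset.mul_sum, star_mul, mul_assoc]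
    rw [Finset.sum_comm]
  rw [e1]
  refine (norm_sum_le_card _ (B := (k : ℝ) * (C * (32 * R * X * ε + 2 * ε') * C)) fun i => ?_).trans_eq
    (by rw [Fintype.card_fin])
  refine (norm_sum_le_card _ fun j => ?_).trans_eq (by rw [Fintype.card_fin])
  have hC0 : 0 ≤ C := (norm_nonneg _).trans (hC i)
  have e4 : star w * (star (r i) * h * x * h * r j) * w - ρ i j • D
      = star w * (star (r i) * h * x * h * r j - h * (star (r i) * x * r j) * h) * w
        + star (h * w) * (star (r i) * x * r j - ρ i j • b) * (h * w) := by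
    rw [← hD]
    simp only [star_mul, hs, mul_sub, sub_mul, mul_smul_comm, smul_mul_assoc, mul_assoc]
    abel
  have a1 := norm_sub_comm_sq hh ((norm_star _).trans_le (hr i)) (hr j) hX (hcomm i).2 (hcomm j).1
  have hq : 0 ≤ 2 * R * X * ε := (norm_nonneg _).trans a1
  have h2 : ‖star w * (star (r i) * h * x * h * r j) * w - ρ i j • D‖
      ≤ 32 * R * X * ε + 2 * ε' := by
    rw [e4]
    refine (norm_add_le _ _).trans (add_le_add ?_ ((hex i j (h * w)).trans ?_))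
    · refine (norm_conj_le _ _ _).trans ((mul_le_mul (mul_le_mul hw a1 (norm_nonneg _) (by norm_num))
        hw (norm_nonneg _) (mul_nonneg (by norm_num) hq)).trans_eq (by ring))
    · rw [hD]; nlinarith
  exact (norm_conj_le _ _ _).trans (mul_le_mul (mul_le_mul (hC i) h2 (norm_nonneg _) hC0) (hC j)
    (norm_nonneg _) (mul_nonneg hC0 ((norm_nonneg _).trans h2)))

/-- The excised forms add up to the left multiple of the approximate value. -/
lemma value_estimate {k P : ℕ} (lam : Fin P → ℝ) (ρ : Fin P → Fin k → Fin k → ℂ)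
    (φ : Fin k → Fin k → ℂ) (c : Fin k → Fin k → A) (D : Fin 2 → A) (e : A) {C Q ε ε' : ℝ}
    (hlam : ∀ p, 0 ≤ lam p) (hlam1 : ∑ p, lam p = 1) (hC : ∀ l i, ‖c l i‖ ≤ C)
    (hC1 : 1 ≤ C) (hQ : ∀ p i j, ‖ρ p i j‖ ≤ Q) (hφ : ∀ i j, ‖φ i j‖ ≤ Q) (hQ0 : 0 ≤ Q)
    (he : ‖e‖ ≤ 1) (hD : ‖D 0 + D 1 - e‖ ≤ 2 * ε) (hε : 0 ≤ ε)
    (hcomm : ∀ l i, ‖e * star (c l i) - star (c l i) * e‖ ≤ ε)
    (hρ : ∀ i j, ‖∑ p, (lam p : ℂ) * ρ p i j - φ i j‖ ≤ ε') (hε' : 0 ≤ ε') :
    ‖(∑ p : Fin P × Fin k × Fin 2, lam p.1 •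
          ∑ i, ∑ j, ρ p.1 i j • (star (c p.2.1 i) * D p.2.2 * c p.2.1 j))
        - e * ∑ l, ∑ i, ∑ j, φ i j • (star (c l i) * c l j)‖
      ≤ (k : ℝ) ^ 3 * C ^ 2 * (3 * (Q * ε) + ε') := by
  have e6 : (∑ p : Fin P × Fin k × Fin 2, lam p.1 •
        ∑ i, ∑ j, ρ p.1 i j • (star (c p.2.1 i) * D p.2.2 * c p.2.1 j)) = ∑ l, ∑ i, ∑ j,
      (∑ p, (lam p : ℂ) * ρ p i j) • (star (c l i) * (D 0 + D 1) * c l j) := by
    simp only [Fintype.sum_prod_type, Fin.sum_univ_two, mul_add, add_mul, smul_add,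
      Finset.smul_sum, Finset.sum_add_distrib, Finset.sum_smul, mul_smul, Complex.coe_smul]
    congr 1 <;>
    · rw [Finset.sum_comm]
      refine Finset.sum_congr rfl fun l _ => ?_
      rw [Finset.sum_comm]
      refine Finset.sum_congr rfl fun i _ => ?_
      rw [Finset.sum_comm]
  rw [e6, Finset.mul_sum, ← Finset.sum_sub_distrib]
  simp only [Finset.mul_sum, mul_smul_comm, ← Finset.sum_sub_distrib]
  refine (norm_sum_le_card _ (B := (k : ℝ) * ((k : ℝ) * (C ^ 2 * (3 * (Q * ε) + ε'))))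
    fun l => ?_).trans_eq (by rw [Fintype.card_fin]; ring)
  refine (norm_sum_le_card _ fun i => ?_).trans_eq (by rw [Fintype.card_fin])
  refine (norm_sum_le_card _ fun j => ?_).trans_eq (by rw [Fintype.card_fin])
  set Λ := ∑ p, (lam p : ℂ) * ρ p i j
  have hΛ : ‖Λ‖ ≤ Q := by
    refine (norm_sum_le _ _).trans ?_
    calc ∑ p, ‖(lam p : ℂ) * ρ p i j‖ ≤ ∑ p, lam p * Q := Finset.sum_le_sum fun p _ => by
          rw [norm_mul, Complex.norm_real, Real.norm_eq_abs, abs_of_nonneg (hlam p)]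
          exact mul_le_mul_of_nonneg_left (hQ p i j) (hlam p)
      _ = Q := by rw [← Finset.sum_mul, hlam1, one_mul]
  have e7 : Λ • (star (c l i) * (D 0 + D 1) * c l j) - φ i j • (e * (star (c l i) * c l j))
      = star (c l i) * (Λ • (D 0 + D 1 - e) + (Λ - φ i j) • e) * c l j
        + φ i j • ((star (c l i) * e - e * star (c l i)) * c l j) := by
    simp only [smul_sub, sub_smul, mul_add, add_mul, mul_sub, sub_mul, mul_smul_comm,
      smul_mul_assoc, smul_add, mul_assoc]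
    abel
  have hC0 : 0 ≤ C := zero_le_one.trans hC1
  rw [e7]
  refine (norm_add_le _ _).trans ((add_le_add ((norm_conj_le _ _ _).trans
    (mul_le_mul (mul_le_mul (hC l i) (show _ ≤ Q * (2 * ε) + ε' * 1 from ?_) (norm_nonneg _) hC0)
      (hC l j) (norm_nonneg _) (by positivity)))
    (show _ ≤ Q * (ε * C) from ?_)).trans ?_)
  · refine (norm_add_le _ _).trans (add_le_add ?_ ?_) <;> rw [norm_smul]
    · exact mul_le_mul hΛ hD (norm_nonneg _) hQ0
    · exact mul_le_mul (hρ i j) he (norm_nonneg _) hε'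
  · rw [norm_smul]
    refine mul_le_mul (hφ i j) ((norm_mul_le _ _).trans (mul_le_mul ?_ (hC l j) (norm_nonneg _) hε))
      (norm_nonneg _) hQ0
    rw [norm_sub_rev]
    exact hcomm l i
  · have h0 : 0 ≤ Q * ε := mul_nonneg hQ0 hε
    nlinarith [mul_le_mul_of_nonneg_left hC1 (mul_nonneg h0 hC0)]

end Vale.Agent.P095.Amenable.SI
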