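import Vale.Agent.P095.Amenable.Defs
import Vale.Agent.P095.Amenable.SI.Estimates

/-! Assembly of the two intertwiners from their pieces. -/

noncomputable section

namespace Vale.Agent.P095.Amenable.SI

universe u v

/-- From the pieces to the two intertwiners. -/
theorem assemble {A : Type u} [CStarAlgebra A] {G : Type v} (α : G → A ≃⋆ₐ[ℂ] A) (E : Finset G)
    (F : Finset A) (hF : (1 : A) ∈ F) {k P : ℕ} (φ : A →ₗ[ℂ] Matrix (Fin k) (Fin k) ℂ)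
    (ψ : Matrix (Fin k) (Fin k) ℂ →ₗ[ℂ] A) (c : Fin k → Fin k → A) (lam : Fin P → ℝ)
    (ρ : Fin P → A → Fin k → Fin k → ℂ) (r : Fin P → Fin k → A) (b : Fin P → A)
    (h w : Fin 2 × Fin P × Fin k × Fin 2 → A) (D : Fin 2 → A) (eN : A)
    {X C R Q0 ε ε2 ε3 ε4 : ℝ} (hε : 0 < ε) (hε1 : ε ≤ 1) (hX1 : 1 ≤ X) (hX : ∀ x ∈ F, ‖x‖ ≤ X)
    (hC1 : 1 ≤ C) (hC : ∀ l i, ‖c l i‖ ≤ C) (hR1 : 1 ≤ R) (hR : ∀ p i, ‖r p i‖ ≤ R)
    (hQ1 : 1 ≤ Q0) (hQ0 : (∀ p, ∀ x ∈ F, ∀ i j, ‖ρ p x i j‖ ≤ Q0) ∧ ∀ x ∈ F, ∀ i j, ‖φ x i j‖ ≤ Q0)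
    (hlam0 : ∀ p, 0 ≤ lam p) (hlam1 : ∑ p, lam p = 1)
    (hρφ : ∀ x ∈ F, ∀ i j, ‖∑ p, (lam p : ℂ) * ρ p x i j - φ x i j‖ ≤ ε2)
    (hex : ∀ p, ∀ x ∈ F, ∀ i j, ∀ v : A,
      ‖star v * (star (r p i) * x * r p j - ρ p x i j • b p) * v‖ ≤ ε2 * ‖star v * b p * v‖)
    (hcψ : ∀ M, ψ M = ∑ l, ∑ i, ∑ j, M i j • (star (c l i) * c l j))
    (hφψ : ∀ x ∈ F, ‖ψ (φ x) - x‖ < ε / 8)
    (hhs : ∀ u, star (h u) = h u) (hhn : ∀ u, ‖h u‖ ≤ 1)
    (hcF : ∀ u, ∀ x ∈ F, ‖h u * x - x * h u‖ ≤ ε3)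
    (hcR : ∀ (u : Fin 2 × Fin P × Fin k × Fin 2) i, ‖h u * r u.2.1 i - r u.2.1 i * h u‖ ≤ ε3 ∧
      ‖h u * star (r u.2.1 i) - star (r u.2.1 i) * h u‖ ≤ ε3)
    (hhorth : ∀ u u', u ≠ u' → ‖h u * h u'‖ ≤ ε3)
    (hhE : ∀ u u', ∀ g ∈ E, ‖h u * α g (h u')‖ ≤ ε3)
    (hwD : ∀ u : Fin 2 × Fin P × Fin k × Fin 2, star (h u * w u) * b u.2.1 * (h u * w u) = D u.2.2.2)
    (hwn : ∀ u, ‖w u‖ ≤ 4) (hDn : ∀ d, ‖D d‖ ≤ 2) (hD12 : ‖D 0 + D 1 - eN‖ ≤ 2 * ε4)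
    (heN : ‖eN‖ ≤ 1) (hcm : ∀ l i, ‖eN * star (c l i) - star (c l i) * eN‖ ≤ ε4)
    (hε20 : 0 < ε2) (hε30 : 0 < ε3) (hε40 : 0 < ε4) {B N Gc : ℝ} (hB : B = (k : ℝ) * (R * 4 * C))
    (hN : N = ((P : ℝ) * (k * 2) + 1) ^ 2 * ((B + 1) ^ 2 * (1 + X)))
    (hGc : Gc = ((k : ℝ) + 1) ^ 3 * C ^ 2) (hNε : N * ε3 + Gc * R * X * ε3 ≤ ε / 256)
    (h64 : Gc * ε2 = ε / 64) (h128 : Gc * (Q0 * ε4) = ε / 128) :
    ∃ S : Fin 2 → A, (∀ q, ‖S q‖ ≤ 2) ∧
      (∀ q, ∀ x ∈ F, ‖star (S q) * x * S q - eN * x‖ ≤ ε) ∧ ‖star (S 0) * S 1‖ ≤ ε ∧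
      ∀ g ∈ E, ∀ i j, ‖star (S i) * α g (S j)‖ ≤ ε := by
  classical
  have hB0 : 0 ≤ B := by rw [hB]; positivity
  have hGc0 : 0 ≤ Gc := by rw [hGc]; positivity
  have hN00 : 0 ≤ N := by rw [hN]; positivity
  let Y : Fin 2 × Fin P × Fin k × Fin 2 → A := fun u =>
    ∑ j, r u.2.1 j * w u * c u.2.2.1 j
  have hY : ∀ u, ‖Y u‖ ≤ B := fun u => by
    refine (norm_sum_le_card _ (B := R * 4 * C) fun j => (norm_mul₃_le ..).trans ?_).trans_eq
      (by rw [hB, Fintype.card_fin])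
    gcongr <;> [exact hR _ _; exact hwn u; exact hC _ _]
  let sl : Fin P × Fin k × Fin 2 → ℝ := fun p => Real.sqrt (lam p.1)
  have hsl1 : ∀ p, 0 ≤ sl p ∧ sl p ≤ 1 := fun p => ⟨Real.sqrt_nonneg _, by
    refine Real.sqrt_le_one.2 ?_
    exact (Finset.single_le_sum (fun i _ => hlam0 i) (Finset.mem_univ p.1)).trans_eq hlam1⟩
  refine ⟨fun q => ∑ p, sl p • (h (q, p) * Y (q, p)), ?_⟩
  have hcard : (Fintype.card (Fin P × Fin k × Fin 2) : ℝ) = (P : ℝ) * (k * 2) := by simp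
  have hcross : ∀ x ∈ F, ∀ u u', u ≠ u' → ‖h u * x * h u'‖ ≤ (1 + X) * ε3 := fun x hx u u' hne => by
    have h1 := hcF u x hx
    have h2 := hhorth u u' hne
    calc ‖h u * x * h u'‖ = ‖(h u * x - x * h u) * h u' + x * (h u * h u')‖ := by
          congr 1; noncomm_ring
      _ ≤ ε3 * 1 + X * ε3 := (norm_add_le _ _).trans (add_le_add
          ((norm_mul_le _ _).trans (mul_le_mul h1 (hhn _) (norm_nonneg _) hε30.le))
          ((norm_mul_le _ _).trans (mul_le_mul (hX x hx) h2 (norm_nonneg _) (by linarith))))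
      _ = _ := by ring
  have hNb : (P : ℝ) * (k * 2) * ((P : ℝ) * (k * 2) * (B * ((1 + X) * ε3) * B)) ≤ N * ε3 := by
    rw [hN]
    have h1 : (P : ℝ) * (k * 2) * ((P : ℝ) * (k * 2)) ≤ ((P : ℝ) * (k * 2) + 1) ^ 2 := by
      have : (0 : ℝ) ≤ (P : ℝ) * (k * 2) := by positivity
      nlinarith
    have h2 : B * B ≤ (B + 1) ^ 2 := by nlinarith
    calc (P : ℝ) * (k * 2) * ((P : ℝ) * (k * 2) * (B * ((1 + X) * ε3) * B))
        = (P : ℝ) * (k * 2) * ((P : ℝ) * (k * 2)) * (B * B * (1 + X)) * ε3 := by ring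
      _ ≤ _ := by gcongr
  have hGR : 0 ≤ Gc * R * X * ε3 := by positivity
  have hkk : (k : ℝ) ^ 3 * C ^ 2 ≤ Gc := by rw [hGc]; gcongr; linarith
  have hNb' : (Fintype.card (Fin P × Fin k × Fin 2) : ℝ) *
      (Fintype.card (Fin P × Fin k × Fin 2) * (B * ((1 + X) * ε3) * B)) ≤ N * ε3 := by
    rw [hcard]; exact hNb
  -- the main estimate
  have hmain : ∀ q, ∀ x ∈ F, ‖star (∑ p, sl p • (h (q, p) * Y (q, p))) * x *
      (∑ p, sl p • (h (q, p) * Y (q, p))) - eN * x‖ ≤ ε := by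
    intro q x hx
    have s1 := (diag_estimate sl (fun p => h (q, p)) (fun p => Y (q, p)) x hsl1
      (fun p => hhs _) (fun p => hY _) (show 0 ≤ (1 + X) * ε3 by positivity)
      (fun p p' hne => hcross x hx (q, p) (q, p') fun he => hne (Prod.mk.inj he).2)).trans
      hNb'
    let Z : Fin P × Fin k × Fin 2 → A := fun p => ∑ i, ∑ j,
      ρ p.1 x i j • (star (c p.2.1 i) * D p.2.2 * c p.2.1 j)
    have hd : ∀ p, ‖star (Y (q, p)) * (h (q, p) * x * h (q, p)) * Y (q, p) - Z p‖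
        ≤ (k : ℝ) * (k * (C * (32 * R * X * ε3 + 2 * ε2) * C)) := fun p =>
      excise_estimate (h := h (q, p)) (w := w (q, p)) (b := b p.1) (r := r p.1) (c := c p.2.1)
        (ρ := ρ p.1 x) (hhs _) (hhn _) (hwn _) (hR p.1) (hX x hx) (hC p.2.1) hε20.le
        (fun i => hcR (q, p) i)
        (hwD (q, p)) (hDn _)
        (fun i j v => hex p.1 x hx i j v)
    have s2 : ‖∑ p, (sl p * sl p) • (star (Y (q, p)) * (h (q, p) * x * h (q, p)) * Y (q, p))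
        - ∑ p, (sl p * sl p) • Z p‖ ≤ 2 * Gc * (32 * R * X * ε3 + 2 * ε2) := by
      rw [← Finset.sum_sub_distrib]
      simp only [← smul_sub]
      refine (norm_sum_smul_le _ _ (fun p => mul_nonneg (hsl1 p).1 (hsl1 p).1) hd).trans ?_
      have e5 : ∑ p, sl p * sl p = 2 * (k : ℝ) := by
        simp only [sl, Real.mul_self_sqrt (hlam0 _)]
        rw [Fintype.sum_prod_type]
        simp only [Finset.sum_const, Finset.card_univ, Fintype.card_prod, Fintype.card_fin,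
          nsmul_eq_mul, ← Finset.mul_sum, hlam1]
        push_cast
        ring
      rw [e5]
      calc 2 * (k : ℝ) * ((k : ℝ) * (k * (C * (32 * R * X * ε3 + 2 * ε2) * C)))
          = 2 * ((k : ℝ) ^ 3 * C ^ 2) * (32 * R * X * ε3 + 2 * ε2) := by ring
        _ ≤ _ := by gcongr
    have s3 : ‖∑ p, (sl p * sl p) • Z p - eN * ψ (φ x)‖ ≤ Gc * (3 * (Q0 * ε4) + ε2) := by
      have e5 : ∀ p, sl p * sl p = lam p.1 := fun p => Real.mul_self_sqrt (hlam0 _)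
      simp only [e5, hcψ (φ x)]
      exact (value_estimate lam (fun p => ρ p x) (φ x) c D (eN) hlam0 hlam1 hC hC1
        (fun p => hQ0.1 p x hx) (hQ0.2 x hx) (by linarith) heN hD12 hε40.le
        hcm (hρφ x hx) hε20.le).trans (by gcongr)
    have s5 : ‖eN * ψ (φ x) - eN * x‖ ≤ ε / 8 := by
      rw [← mul_sub]
      exact (norm_mul_le _ _).trans ((mul_le_mul heN (hφψ x hx).le (norm_nonneg _)
        zero_le_one).trans_eq (one_mul _))
    have t3 : Gc * (3 * (Q0 * ε4) + ε2) = 3 * (Gc * (Q0 * ε4)) + Gc * ε2 := by ring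
    have t2' : 2 * Gc * (32 * R * X * ε3 + 2 * ε2) = 64 * (Gc * R * X * ε3) + 4 * (Gc * ε2) := by
      ring
    have hN0 : 0 ≤ N * ε3 := by positivity
    refine (norm_sub_le_norm_sub_add_norm_sub _ (∑ p, (sl p * sl p) •
      (star (Y (q, p)) * (h (q, p) * x * h (q, p)) * Y (q, p))) _).trans ?_
    refine (add_le_add s1 ((norm_sub_le_norm_sub_add_norm_sub _ (∑ p, (sl p * sl p) • Z p) _).trans
      (add_le_add s2 ((norm_sub_le_norm_sub_add_norm_sub _ (eN * ψ (φ x)) _).trans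
        (add_le_add s3 s5))))).trans ?_
    linarith
  refine ⟨fun q => ?_, hmain, ?_, fun g hg i j => ?_⟩
  · have h1 := hmain q 1 hF
    rw [mul_one, mul_one] at h1
    have h2 := norm_le_norm_add_norm_sub' (star (∑ p, sl p • (h (q, p) * Y (q, p))) *
      (∑ p, sl p • (h (q, p) * Y (q, p)))) (eN)
    rw [CStarRing.norm_star_mul_self] at h2
    show ‖∑ p, sl p • (h (q, p) * Y (q, p))‖ ≤ 2
    nlinarith [heN, norm_nonneg (∑ p, sl p • (h (q, p) * Y (q, p)))]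
  · refine ((cross_estimate sl (fun p => h (0, p)) (fun p => h (1, p)) (fun p => Y (0, p))
      (fun p => Y (1, p)) hsl1 (fun p => hY _) (fun p => hY _) (K := (1 + X) * ε3) fun p p' => ?_).trans
      hNb').trans (by linarith)
    simpa [hhs] using hcross 1 hF (0, p) (1, p') (by simp)
  · show ‖star (∑ p, sl p • (h (i, p) * Y (i, p))) * α g (∑ p, sl p • (h (j, p) * Y (j, p)))‖ ≤ ε
    have hiso : ∀ y, ‖α g y‖ = ‖y‖ := fun y => NonUnitalStarAlgHom.norm_map (α g) (α g).injective y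
    have e8 : α g (∑ p, sl p • (h (j, p) * Y (j, p)))
        = ∑ p, sl p • (α g (h (j, p)) * α g (Y (j, p))) := by
      simp only [← Complex.coe_smul (sl _), map_sum, map_smul, map_mul]
    rw [e8]
    refine ((cross_estimate sl (fun p => h (i, p)) (fun p => α g (h (j, p))) (fun p => Y (i, p))
      (fun p => α g (Y (j, p))) hsl1 (fun p => hY _) (fun p => (hiso _).trans_le (hY _))
      (K := (1 + X) * ε3) fun p p' => ?_).trans hNb').trans (by linarith)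
    rw [hhs]
    exact (hhE _ _ g hg).trans (le_mul_of_one_le_left hε30.le (by linarith))

end Vale.Agent.P095.Amenable.SI
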