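import Vale.Agent.P095.Amenable.Defs

/-! Preliminaries for the SI module: a common element below finitely many, plateau functional
calculus and the pieces of completely positive maps. -/

noncomputable section

open Filter Topology

namespace Vale.Agent.P095.Amenable.SI

open Vale.Agent.P095.Amenable

universe u

variable {A : Type u} [CStarAlgebra A]

/-- The square root of a square. -/
lemma exists_sqrt {a : A} (ha : Nonneg a) : ∃ c : A, star c = c ∧ c * c = a := by
  obtain ⟨y, rfl⟩ := ha
  let := CStarAlgebra.spectralOrder A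
  have := CStarAlgebra.spectralOrderedRing A
  exact ⟨CFC.sqrt (star y * y), (IsSelfAdjoint.of_nonneg (CFC.sqrt_nonneg _)).star_eq,
    CFC.sqrt_mul_sqrt_self _ (star_mul_self_nonneg y)⟩

/-- A nonzero element below finitely many nonzero positive elements. -/
lemma exists_common [Nontrivial A] (hsimp : IsSimpleUnital A) {ι : Type*} (a : ι → A)
    (ha : ∀ i, Nonneg (a i) ∧ a i ≠ 0) (s : Finset ι) :
    ∃ c : A, Nonneg c ∧ c ≠ 0 ∧ ∀ i ∈ s, ∃ v : A, star v * a i * v = c := by
  classical
  induction s using Finset.induction_on with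
  | empty => exact ⟨1, ⟨1, by simp⟩, one_ne_zero, by simp⟩
  | insert i s hi ih =>
    obtain ⟨a0, hn0, hne0, hv⟩ := ih
    obtain ⟨⟨z1, hz1⟩, hne1⟩ := ha i
    obtain ⟨r0, hr0s, hr0⟩ := exists_sqrt hn0
    obtain ⟨r1, hr1s, hr1⟩ := exists_sqrt ⟨z1, hz1⟩
    have hr1ne : r1 ≠ 0 := fun h => hne1 (by rw [← hr1, h, mul_zero])
    obtain ⟨y, hy⟩ : ∃ y, r1 * y * a0 ≠ 0 := by
      by_contra hall
      simp only [not_exists, not_not] at hall
      obtain ⟨N, p, q, h1⟩ := hsimp r1 hr1ne
      refine hne0 ?_
      rw [← one_mul a0, ← h1, Finset.sum_mul]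
      refine Finset.sum_eq_zero fun j _ => ?_
      rw [mul_assoc (p j), mul_assoc (p j), hall, mul_zero]
    set w := r1 * y * a0 with hw
    set c := star w * w with hc
    have hcne : c ≠ 0 := fun h => hy ((CStarRing.star_mul_self_eq_zero_iff _).1 h)
    obtain ⟨rc, hrcs, hrc⟩ := exists_sqrt (⟨w, rfl⟩ : Nonneg c)
    have hcs : star c = c := by rw [hc, star_mul, star_star]
    have ha0s : star a0 = a0 := by rw [← hr0, star_mul, hr0s]
    refine ⟨c * c, ⟨c, by rw [hcs]⟩, fun h => hcne ((CStarRing.star_mul_self_eq_zero_iff _).1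
      (by rw [hcs]; exact h)), fun j hj => ?_⟩
    rcases Finset.mem_insert.1 hj with rfl | hj
    · refine ⟨y * a0 * rc, ?_⟩
      calc star (y * a0 * rc) * a j * (y * a0 * rc)
          = rc * (star w * w) * rc := by
            simp only [hw, star_mul, hrcs, hr1s, ha0s, ← hr1, mul_assoc]
        _ = c * c := by rw [← hc, ← hrc]; simp only [mul_assoc]
    · obtain ⟨v, hv⟩ := hv j hj
      set M := r0 * star y * (r1 * r1) * y * r0 with hM
      have hMs : star M = M := by simp only [hM, star_mul, star_star, hr0s, hr1s, mul_assoc]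
      have hcM : c = r0 * M * r0 := by
        simp only [hc, hw, hM, star_mul, hr1s, ← hr0, hr0s, mul_assoc]
      refine ⟨v * (M * r0), ?_⟩
      calc star (v * (M * r0)) * a j * (v * (M * r0))
          = star (M * r0) * (star v * a j * v) * (M * r0) := by simp only [star_mul, mul_assoc]
        _ = c * c := by
            rw [hv, hcM, star_mul, hr0s, hMs, ← hr0]
            simp only [mul_assoc]

/-- The plateau function. -/
def plat (t : ℝ) : ℝ := min 1 (max 0 (4 * t - 2))

lemma continuous_plat : Continuous plat := by unfold plat; fun_prop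

lemma plat_nonneg (t : ℝ) : 0 ≤ plat t := le_min zero_le_one (le_max_left _ _)

lemma plat_le_one (t : ℝ) : plat t ≤ 1 := min_le_left _ _

lemma plat_eq_zero {t : ℝ} (ht : t ≤ 1 / 2) : plat t = 0 := by
  unfold plat
  rw [max_eq_left (by linarith), min_eq_right zero_le_one]

/-- For a positive element of norm above a half the plateau is nonzero, and it is reproduced by
compressions of the element. -/
lemma exists_plateau {z : A} (hz : Nonneg z) (hn : 1 / 2 < ‖z‖) :
    ∃ P Q : A, Nonneg P ∧ P ≠ 0 ∧ ‖Q‖ ≤ 2 ∧ Commute Q z ∧ star Q * z * Q = P ∧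
      ∀ t : A, ‖Q * t‖ * ‖Q * t‖ ≤ 2 * ‖star t * P * t‖ := by
  obtain ⟨y, rfl⟩ := hz
  let := CStarAlgebra.spectralOrder A
  have := CStarAlgebra.spectralOrderedRing A
  set z := star y * y with hzdef
  have hz0 : 0 ≤ z := star_mul_self_nonneg y
  have hzsa : IsSelfAdjoint z := IsSelfAdjoint.of_nonneg hz0
  have : Nontrivial A := ⟨⟨z, 0, fun h => by rw [h, norm_zero] at hn; linarith⟩⟩
  set q : ℝ → ℝ := fun t => Real.sqrt (plat t / max t (1 / 2)) with hq
  have hm : ∀ t : ℝ, 0 < max t (1 / 2) := fun t => lt_of_lt_of_le one_half_pos (le_max_right _ _)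
  have cq : Continuous q := Real.continuous_sqrt.comp
    (continuous_plat.div (by fun_prop) fun t => (hm t).ne')
  have hqs : star (cfc q z) = cfc q z := (cfc_predicate q z : IsSelfAdjoint _).star_eq
  have hqq : ∀ t, q t * t * q t = plat t := fun t => by
    rw [mul_right_comm, hq]
    simp only
    rw [Real.mul_self_sqrt (div_nonneg (plat_nonneg t) (hm t).le)]
    rcases le_or_gt t (1 / 2) with h | h
    · simp [plat_eq_zero h]
    · rw [max_eq_left h.le, div_mul_cancel₀]
      linarith
  have hP : 0 ≤ cfc plat z := cfc_nonneg fun t _ => plat_nonneg t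
  refine ⟨cfc plat z, cfc q z, ?_, ?_, ?_, (Commute.refl z).cfc_real q, ?_, fun t => ?_⟩
  · obtain ⟨c, hc⟩ := (CStarAlgebra.nonneg_iff_eq_star_mul_self).1 hP
    exact ⟨c, hc⟩
  · intro h0
    have hmem : ‖z‖ ∈ spectrum ℝ z := CStarAlgebra.norm_mem_spectrum_of_nonneg hz0
    have h1 := norm_apply_le_norm_cfc plat z hmem continuous_plat.continuousOn
    rw [h0, norm_zero, norm_le_zero_iff] at h1
    have : 0 < plat ‖z‖ := lt_min one_pos (lt_of_lt_of_le (by linarith) (le_max_right _ _))
    linarith
  · refine norm_cfc_le (by norm_num) fun t _ => ?_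
    rw [Real.norm_eq_abs, abs_of_nonneg (Real.sqrt_nonneg _)]
    refine Real.sqrt_le_iff.2 ⟨by norm_num, ?_⟩
    rw [div_le_iff₀ (hm t)]
    nlinarith [plat_le_one t, le_max_right t (1 / 2)]
  · rw [hqs]
    conv_lhs => arg 1; arg 2; rw [← cfc_id' ℝ z]
    rw [← cfc_mul q (fun t => t) z cq.continuousOn continuousOn_id,
      ← cfc_mul (fun t => q t * t) q z (cq.mul continuous_id).continuousOn cq.continuousOn]
    exact cfc_congr fun t _ => hqq t
  · have h1 : cfc (fun t => q t * q t) z ≤ (2 : ℝ) • cfc plat z := by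
      rw [← cfc_smul (2 : ℝ) plat z continuous_plat.continuousOn]
      refine cfc_mono (fun t _ => ?_) (cq.mul cq).continuousOn
        (continuous_plat.continuousOn.const_smul (2 : ℝ))
      show Real.sqrt _ * Real.sqrt _ ≤ 2 * plat t
      rw [Real.mul_self_sqrt (div_nonneg (plat_nonneg t) (hm t).le), div_le_iff₀ (hm t)]
      nlinarith [plat_nonneg t, le_max_right t (1 / 2)]
    have h2 := star_left_conjugate_le_conjugate h1 t
    have e : star (cfc q z * t) * (cfc q z * t) = star t * cfc (fun t => q t * q t) z * t := by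
      rw [cfc_mul q q z cq.continuousOn cq.continuousOn, star_mul, hqs]
      simp only [mul_assoc]
    rw [← CStarRing.norm_star_mul_self, e]
    refine (CStarAlgebra.norm_le_norm_of_nonneg_of_le (e ▸ star_mul_self_nonneg _) h2).trans ?_
    rw [mul_smul_comm, smul_mul_assoc, norm_smul, Real.norm_eq_abs, abs_of_pos two_pos]

/-- Pieces of a completely positive map on matrices. -/
lemma exists_pieces {k : ℕ} (ψ : Matrix (Fin k) (Fin k) ℂ →ₗ[ℂ] A) (hψ : IsCP ψ) :
    ∃ c : Fin k → Fin k → A, ∀ M, ψ M = ∑ l, ∑ i, ∑ j, M i j • (star (c l i) * c l j) := by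
  classical
  obtain ⟨Y, hY⟩ := hψ k (Matrix.of fun a b => if a.1 = 0 then Matrix.single a b (1 : ℂ) else 0)
  refine ⟨Y, fun M => ?_⟩
  have h : ∀ i j, ψ (Matrix.single i j 1) = ∑ l, star (Y l i) * Y l j := fun i j => by
    have h0 := congrFun (congrFun hY i) j
    simp only [Matrix.map_apply, Matrix.star_eq_conjTranspose, Matrix.mul_apply,
      Matrix.conjTranspose_apply, Matrix.of_apply] at h0
    have hk : 0 < k := i.pos
    rw [Finset.sum_eq_single (⟨0, hk⟩ : Fin k) (fun b _ hb => by
      rw [if_neg fun he : b.1 = 0 => hb (Fin.ext he), Matrix.conjTranspose_zero, zero_mul])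
      (by simp), if_pos rfl, if_pos rfl] at h0
    rw [← h0, Matrix.conjTranspose_single, star_one,
      Matrix.single_mul_single_same, one_mul]
  conv_lhs => rw [Matrix.matrix_eq_sum_single M]
  simp only [map_sum]
  rw [Finset.sum_comm (γ := Fin k) (s := Finset.univ) (t := Finset.univ)
    (f := fun l i => ∑ j, M i j • (star (Y l i) * Y l j))]
  refine Finset.sum_congr rfl fun i _ => ?_
  rw [Finset.sum_comm]
  refine Finset.sum_congr rfl fun j _ => ?_
  rw [show Matrix.single i j (M i j) = M i j • Matrix.single i j (1 : ℂ) by simp, map_smul, h,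
    Finset.smul_sum]

end Vale.Agent.P095.Amenable.SI
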