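import Vale.Agent.P095.Amenable.Defs
import Vale.Agent.P095.Amenable.SI.Prelim
import Vale.Agent.P095.Amenable.SI.Assemble

/-!
One stage of the SI module: approximate intertwiners with orthogonal translates, at almost all
indices of a tracially null central sequence.
-/

noncomputable section

open Filter Topology
open scoped BoundedContinuousFunction

namespace Vale.Agent.P095.Amenable.SI

open Vale.Agent.P101
open Vale.Agent.P095.Amenable

universe u v


/-- One stage: for a finite set, finitely many nontrivially acting group elements and a tolerance,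
almost all indices admit two approximate intertwiners. -/
theorem stage (hsmall : SmallStatement.{u}) (hcomp : CompareStatement.{u})
    (horth : OrthStatement.{u, v}) (hexc : ExciseStatement.{u}) (A : Type u) [CStarAlgebra A]
    [TopologicalSpace.SeparableSpace A] (ω : Ultrafilter ℕ) (hω : (ω : Filter ℕ) ≤ cofinite)
    (hsimp : IsSimpleUnital A) (hnuc : IsNuclearAlg A) (hc : TwoColours ω A)
    (he : IsEmpty (CentralChar ω A)) (G : Type v) (α : G → A ≃⋆ₐ[ℂ] A) (e : ℕ →ᵇ A)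
    (he1 : ∀ n, Nonneg (e n) ∧ ‖e n‖ ≤ 1) (hec : IsCentral ω e) (het : TraceNull ω e)
    (F : Finset A) (hF : (1 : A) ∈ F) (E : Finset G) (hE : ∀ g ∈ E, ¬ ActsTrivially ω (α g))
    {ε : ℝ} (hε : 0 < ε) (hε1 : ε ≤ 1) :
    ∀ᶠ n in (ω : Filter ℕ), ∃ S : Fin 2 → A, (∀ q, ‖S q‖ ≤ 2) ∧
      (∀ q, ∀ x ∈ F, ‖star (S q) * x * S q - e n * x‖ ≤ ε) ∧ ‖star (S 0) * S 1‖ ≤ ε ∧
      ∀ g ∈ E, ∀ i j, ‖star (S i) * α g (S j)‖ ≤ ε := by
  classical
  rcases subsingleton_or_nontrivial A with hA | hA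
  · exact Eventually.of_forall fun n => ⟨fun _ => 0, fun q => by simp,
      fun q x _ => by simp [Subsingleton.elim (e n * x) 0, hε.le], by simp [hε.le],
      fun g _ i j => by simp [hε.le]⟩
  obtain ⟨X, hX1, hX⟩ : ∃ X : ℝ, 1 ≤ X ∧ ∀ x ∈ F, ‖x‖ ≤ X :=
    ⟨1 + ∑ x ∈ F, ‖x‖, by
      have : 0 ≤ ∑ x ∈ F, ‖x‖ := Finset.sum_nonneg fun _ _ => norm_nonneg _
      linarith, fun x hx => by
      have := Finset.single_le_sum (f := fun x : A => ‖x‖) (fun _ _ => norm_nonneg _) hx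
      linarith⟩
  obtain ⟨k, φ, ψ, hφ, hψ, hφ1, -, hφψ⟩ := hnuc F (ε / 8) (by positivity)
  obtain ⟨c, hcψ⟩ := exists_pieces ψ hψ
  obtain ⟨C, hC1, hC⟩ : ∃ C : ℝ, 1 ≤ C ∧ ∀ l i, ‖c l i‖ ≤ C :=
    ⟨1 + ∑ p : Fin k × Fin k, ‖c p.1 p.2‖, by
      have : 0 ≤ ∑ p : Fin k × Fin k, ‖c p.1 p.2‖ := Finset.sum_nonneg fun _ _ => norm_nonneg _
      linarith, fun l i => norm_le_sum (fun p : Fin k × Fin k => c p.1 p.2) (l, i)⟩
  -- excision
  set Gc : ℝ := ((k : ℝ) + 1) ^ 3 * C ^ 2 with hGc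
  have hGc1 : 1 ≤ Gc := one_le_mul_of_one_le_of_one_le
    (one_le_pow₀ (by linarith [(Nat.cast_nonneg k : (0 : ℝ) ≤ k)])) (one_le_pow₀ hC1)
  set ε2 : ℝ := ε / (64 * Gc) with hε2
  have hε20 : 0 < ε2 := by positivity
  obtain ⟨P, lam, ρ, r, b, hlam0, hlam1, hb, hρφ, hex⟩ := hexc A k φ hφ hφ1 F ε2 hε20
  obtain ⟨R, hR1, hR⟩ : ∃ R : ℝ, 1 ≤ R ∧ ∀ p i, ‖r p i‖ ≤ R :=
    ⟨1 + ∑ p : Fin P × Fin k, ‖r p.1 p.2‖, by
      have : 0 ≤ ∑ p : Fin P × Fin k, ‖r p.1 p.2‖ := Finset.sum_nonneg fun _ _ => norm_nonneg _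
      linarith, fun p i => norm_le_sum (fun p : Fin P × Fin k => r p.1 p.2) (p, i)⟩
  obtain ⟨Q0, hQ1, hQ0⟩ : ∃ Q0 : ℝ, 1 ≤ Q0 ∧ (∀ p, ∀ x ∈ F, ∀ i j, ‖ρ p x i j‖ ≤ Q0) ∧
      ∀ x ∈ F, ∀ i j, ‖φ x i j‖ ≤ Q0 := by
    set T1 : ℝ := ∑ p, ∑ x ∈ F, ∑ i, ∑ j, ‖ρ p x i j‖ with hT1
    set T2 : ℝ := ∑ x ∈ F, ∑ i, ∑ j, ‖φ x i j‖ with hT2
    have h1 : 0 ≤ T1 := Finset.sum_nonneg fun _ _ => Finset.sum_nonneg fun _ _ =>
      Finset.sum_nonneg fun _ _ => Finset.sum_nonneg fun _ _ => norm_nonneg _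
    have h2 : 0 ≤ T2 := Finset.sum_nonneg fun _ _ =>
      Finset.sum_nonneg fun _ _ => Finset.sum_nonneg fun _ _ => norm_nonneg _
    refine ⟨1 + T1 + T2, by linarith, fun p x hx i j => ?_, fun x hx i j => ?_⟩
    · have : ‖ρ p x i j‖ ≤ T1 :=
        (Finset.single_le_sum (f := fun j => ‖ρ p x i j‖) (fun _ _ => norm_nonneg _)
          (Finset.mem_univ j)).trans ((Finset.single_le_sum (f := fun i => ∑ j, ‖ρ p x i j‖)
          (fun _ _ => Finset.sum_nonneg fun _ _ => norm_nonneg _) (Finset.mem_univ i)).trans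
          ((Finset.single_le_sum (f := fun x => ∑ i, ∑ j, ‖ρ p x i j‖) (fun _ _ =>
            Finset.sum_nonneg fun _ _ => Finset.sum_nonneg fun _ _ => norm_nonneg _) hx).trans
          (Finset.single_le_sum (f := fun p => ∑ x ∈ F, ∑ i, ∑ j, ‖ρ p x i j‖) (fun _ _ =>
            Finset.sum_nonneg fun _ _ => Finset.sum_nonneg fun _ _ => Finset.sum_nonneg
              fun _ _ => norm_nonneg _) (Finset.mem_univ p))))
      linarith
    · have : ‖φ x i j‖ ≤ T2 :=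
        (Finset.single_le_sum (f := fun j => ‖φ x i j‖) (fun _ _ => norm_nonneg _)
          (Finset.mem_univ j)).trans ((Finset.single_le_sum (f := fun i => ∑ j, ‖φ x i j‖)
          (fun _ _ => Finset.sum_nonneg fun _ _ => norm_nonneg _) (Finset.mem_univ i)).trans
          (Finset.single_le_sum (f := fun x => ∑ i, ∑ j, ‖φ x i j‖) (fun _ _ =>
            Finset.sum_nonneg fun _ _ => Finset.sum_nonneg fun _ _ => norm_nonneg _) hx))
      linarith
  choose sb hsbs hsb using fun p => exists_sqrt (hb p).1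
  have hsb1 : ∀ p, ‖sb p‖ = 1 := fun p => by
    have h1 := (hb p).2
    rw [← hsb p] at h1
    nth_rewrite 1 [← hsbs p] at h1
    rw [CStarRing.norm_star_mul_self] at h1
    nlinarith [norm_nonneg (sb p)]
  -- orthogonal almost central elements
  set B : ℝ := (k : ℝ) * (R * 4 * C) with hB
  have hB0 : 0 ≤ B := by positivity
  set N : ℝ := ((P : ℝ) * (k * 2) + 1) ^ 2 * ((B + 1) ^ 2 * (1 + X)) with hN
  have hN1 : 1 ≤ N := one_le_mul_of_one_le_of_one_le (one_le_pow₀ (by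
      have : (0 : ℝ) ≤ (P : ℝ) * (k * 2) := by positivity
      linarith))
    (one_le_mul_of_one_le_of_one_le (one_le_pow₀ (by linarith)) (by linarith))
  set ε3 : ℝ := ε / (256 * (N + Gc * R * X)) with hε3
  have hε30 : 0 < ε3 := by positivity
  have hden : 256 ≤ 256 * (N + Gc * R * X) := by
    have : 0 ≤ Gc * R * X := by positivity
    linarith
  have hε3s : ε3 ≤ 1 / 256 := by
    rw [hε3, div_le_div_iff₀ (by linarith) (by norm_num)]
    nlinarith
  set So : Finset A := F ∪ (Finset.univ.image fun p : Fin P × Fin k => r p.1 p.2) ∪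
    (Finset.univ.image fun p : Fin P × Fin k => star (r p.1 p.2)) ∪ Finset.univ.image sb with hSo
  let eι := Fintype.equivFin (Fin 2 × Fin P × Fin k × Fin 2)
  obtain ⟨h0, hh1, hh2, hh3, hh4, hh5⟩ := horth A ω hω hsimp he G α E hE
    (Fintype.card (Fin 2 × Fin P × Fin k × Fin 2)) So ε3 hε30
  let h : Fin 2 × Fin P × Fin k × Fin 2 → A := fun u => h0 (eι u)
  have hhs : ∀ u, star (h u) = h u := fun u => by
    obtain ⟨y, hy⟩ := (hh1 (eι u)).1
    show star (h0 _) = h0 _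
    rw [hy, star_mul, star_star]
  let z : Fin 2 × Fin P × Fin k × Fin 2 → A := fun u => h u * b u.2.1 * h u
  have hz : ∀ u, Nonneg (z u) ∧ 1 / 2 < ‖z u‖ := fun u => by
    have ez : z u = star (sb u.2.1 * h u) * (sb u.2.1 * h u) := by
      simp only [z, star_mul, hhs, hsbs, ← hsb, mul_assoc]
    refine ⟨⟨_, ez⟩, ?_⟩
    rw [ez, CStarRing.norm_star_mul_self]
    have h1 := hh3 (eι u) (sb u.2.1) (by simp [hSo])
    rw [hsb1] at h1
    have h2 : 1 - ε3 ≤ ‖sb u.2.1 * h u‖ := h1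
    nlinarith
  choose Pl Q hPl hPlne hQn hQc hQz hQt using fun u => exists_plateau (hz u).1 (hz u).2
  obtain ⟨a, ha, hane, hv⟩ := exists_common hsimp Pl (fun u => ⟨hPl u, hPlne u⟩) Finset.univ
  choose v hv using fun u => hv u (Finset.mem_univ u)
  -- smallness
  set ε4 : ℝ := ε / (128 * (Gc * Q0)) with hε4
  have hε40 : 0 < ε4 := by positivity
  have hε4s : ε4 ≤ 1 / 4 := by
    rw [hε4, div_le_div_iff₀ (by positivity) (by norm_num)]
    nlinarith [mul_le_mul hGc1 hQ1 zero_le_one (by positivity)]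
  obtain ⟨δ, hδ, hdiv⟩ := hsmall A hsimp hnuc a ha hane ε4 hε40
  filter_upwards [het δ hδ, (Finset.univ : Finset (Fin k × Fin k)).eventually_all.2 fun li _ =>
    (hec (star (c li.1 li.2))).eventually_le_const hε40] with n hn hcm
  obtain ⟨l, m, hlm, hDiv⟩ := hdiv (e n) (he1 n).1 (he1 n).2 hn
  obtain ⟨t1, t2, ht⟩ := hcomp A ω hc (cut (e n) ε4) a l m hlm hDiv ε4 hε40
  let t : Fin 2 → A := ![t1, t2]
  let D : Fin 2 → A := fun d => star (t d) * a * t d
  have hD12 : ‖D 0 + D 1 - e n‖ ≤ 2 * ε4 := by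
    have h1 := norm_cut_sub_le (he1 n).1 hε40.le
    have h2 := norm_sub_le_norm_sub_add_norm_sub (D 0 + D 1) (cut (e n) ε4) (e n)
    simp only [D, t, Matrix.cons_val_zero, Matrix.cons_val_one] at h2 ⊢
    linarith [ht]
  have hDn : ∀ d, ‖D d‖ ≤ 2 := fun d => by
    have h1 := norm_pieces ha hD12
    fin_cases d
    · exact h1.1.trans (by linarith [(he1 n).2])
    · exact h1.2.trans (by linarith [(he1 n).2])
  let w : Fin 2 × Fin P × Fin k × Fin 2 → A := fun u => Q u * (v u * t u.2.2.2)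
  have hwz : ∀ u, star (w u) * z u * w u = D u.2.2.2 := fun u => by
    calc star (w u) * z u * w u
        = star (v u * t u.2.2.2) * (star (Q u) * z u * Q u) * (v u * t u.2.2.2) := by
          simp only [w, star_mul, mul_assoc]
      _ = star (t u.2.2.2) * (star (v u) * Pl u * v u) * t u.2.2.2 := by
          rw [hQz]; simp only [star_mul, mul_assoc]
      _ = D u.2.2.2 := by rw [hv]
  have hwn : ∀ u, ‖w u‖ ≤ 4 := fun u => by
    have h1 : ‖w u‖ * ‖w u‖ ≤ 2 * ‖star (v u * t u.2.2.2) * Pl u * (v u * t u.2.2.2)‖ :=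
      hQt u (v u * t u.2.2.2)
    rw [show star (v u * t u.2.2.2) * Pl u * (v u * t u.2.2.2) = D u.2.2.2 by
      simp only [D, ← hv u, star_mul, mul_assoc]] at h1
    nlinarith [hDn u.2.2.2, norm_nonneg (w u)]
  exact assemble α E F hF φ ψ c lam ρ r b h w D (e n) hε hε1 hX1 hX hC1 hC hR1 hR hQ1 hQ0 hlam0
    hlam1 hρφ hex hcψ hφψ hhs (fun u => (hh1 _).2) (fun u x hx => hh2 _ x (by simp [hSo, hx]))
    (fun u i => ⟨hh2 _ _ (by simp [hSo]), hh2 _ _ (by simp [hSo])⟩)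
    (fun u u' hne => hh4 _ _ fun he => hne (eι.injective he)) (fun u u' g hg => hh5 _ _ g hg)
    (fun u => by rw [← hwz u]; simp only [z, star_mul, hhs, mul_assoc]) hwn hDn hD12 (he1 n).2
    (fun l i => hcm (l, i) (Finset.mem_univ _)) hε20 hε30 hε40 hB hN hGc
    (le_of_eq (by rw [← add_mul, hε3]; field_simp)) (by rw [hε2]; field_simp)
    (by rw [hε4]; field_simp)

end Vale.Agent.P095.Amenable.SI
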